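import Mathlib.GroupTheory.PGroup
import Mathlib.GroupTheory.SpecificGroups.Cyclic
import Mathlib.GroupTheory.QuotientGroup.Basic
import Mathlib.GroupTheory.Subgroup.Center

/-!
# P241, statement layer: the length `ℓ(G, H)`

`ell H` is the least `s` for which there is a chain `H = G₀ ⊴ G₁ ⊴ ⋯ ⊴ G_s = G` with all quotients
cyclic, in the words of the problem. `cycStep_iff` : a step is `B = A ⟨x⟩` with `x` in the
normalizer of `A` (the form used in the earlier files on P241).
-/

namespace Vale.Agent.P241.StE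

variable {G : Type} [Group G]

/-- `A` is a normal subgroup of `B` and `B / A` is cyclic. -/
def CycStep (A B : Subgroup G) : Prop :=
  A ≤ B ∧ ∃ _ : (A.subgroupOf B).Normal, IsCyclic (B ⧸ A.subgroupOf B)

/-- `ℓ(G, H)`: the least `s` for which there is a chain `H = G₀ ⊴ G₁ ⊴ ⋯ ⊴ G_s = G` with cyclic
quotients. -/
noncomputable def ell (H : Subgroup G) : ℕ :=
  sInf {s | ∃ c : ℕ → Subgroup G, c 0 = H ∧ c s = ⊤ ∧ ∀ i < s, CycStep (c i) (c (i + 1))}

theorem cycStep_iff {A B : Subgroup G} :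
    CycStep A B ↔ ∃ x ∈ Subgroup.normalizer (A : Set G), B = A ⊔ Subgroup.zpowers x := by
  constructor
  · rintro ⟨hAB, hn, hc⟩
    obtain ⟨q, hq⟩ := hc.exists_generator
    obtain ⟨x, rfl⟩ := QuotientGroup.mk_surjective q
    have hN : B ≤ Subgroup.normalizer (A : Set G) :=
      (Subgroup.normal_subgroupOf_iff_le_normalizer hAB).1 hn
    refine ⟨x, hN x.2, le_antisymm ?_ (sup_le hAB (by simp [Subgroup.zpowers_le]))⟩
    intro b hb
    obtain ⟨k, hk⟩ := Subgroup.mem_zpowers_iff.1 (hq (QuotientGroup.mk (⟨b, hb⟩ : B)))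
    have h1 : (x ^ k)⁻¹ * ⟨b, hb⟩ ∈ A.subgroupOf B := by
      rw [← QuotientGroup.eq, ← hk]
      rfl
    have h2 : ((x : G) ^ k)⁻¹ * b ∈ A := by simpa [Subgroup.mem_subgroupOf] using h1
    have h3 : b = (x : G) ^ k * (((x : G) ^ k)⁻¹ * b) := by group
    rw [h3]
    exact mul_mem (Subgroup.mem_sup_right (Subgroup.zpow_mem _ (Subgroup.mem_zpowers _) k))
      (Subgroup.mem_sup_left h2)
  · rintro ⟨x, hx, rfl⟩
    have hle : A ⊔ Subgroup.zpowers x ≤ Subgroup.normalizer (A : Set G) :=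
      sup_le Subgroup.le_normalizer (by simpa [Subgroup.zpowers_le] using hx)
    have hn := (Subgroup.normal_subgroupOf_iff_le_normalizer
      (le_sup_left : A ≤ A ⊔ Subgroup.zpowers x)).2 hle
    let x' : (A ⊔ Subgroup.zpowers x : Subgroup G) :=
      ⟨x, Subgroup.mem_sup_right (Subgroup.mem_zpowers x)⟩
    let P : Subgroup (A ⊔ Subgroup.zpowers x : Subgroup G) :=
      (Subgroup.zpowers (QuotientGroup.mk' (A.subgroupOf (A ⊔ Subgroup.zpowers x)) x')).comap
        (QuotientGroup.mk' _)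
    have hP : A ⊔ Subgroup.zpowers x ≤ P.map (Subgroup.subtype _) := by
      refine sup_le (fun a ha => ?_) ?_
      · refine ⟨⟨a, Subgroup.mem_sup_left ha⟩, ?_, rfl⟩
        have h0 : (QuotientGroup.mk' (A.subgroupOf (A ⊔ Subgroup.zpowers x)))
            ⟨a, Subgroup.mem_sup_left ha⟩ = 1 := by
          rw [QuotientGroup.mk'_apply, QuotientGroup.eq_one_iff]
          exact ha
        show _ ∈ P
        rw [Subgroup.mem_comap, h0]
        exact one_mem _
      · rw [Subgroup.zpowers_le]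
        refine ⟨x', ?_, rfl⟩
        show x' ∈ P
        rw [Subgroup.mem_comap]
        exact Subgroup.mem_zpowers _
    refine ⟨le_sup_left, hn, ⟨⟨QuotientGroup.mk' _ x', fun q => ?_⟩⟩⟩
    obtain ⟨⟨b, hb⟩, rfl⟩ := QuotientGroup.mk_surjective q
    obtain ⟨b', hb', hbb⟩ := hP hb
    have : b' = ⟨b, hb⟩ := Subtype.ext hbb
    rw [this] at hb'
    exact hb'

theorem ell_eq (H : Subgroup G) :
    ell H = sInf {s | ∃ c : ℕ → Subgroup G, c 0 = H ∧ c s = ⊤ ∧
      ∀ i < s, ∃ x ∈ Subgroup.normalizer (c i : Set G),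
        c (i + 1) = c i ⊔ Subgroup.zpowers x} := by
  simp only [ell, cycStep_iff]

end Vale.Agent.P241.StE
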